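import Mathlib

namespace Vale.Agent.Results.P013.LargePrimes

/-- Every `m` consecutive integers contain an integer coprime to `n`. -/
def CoprimeInEveryWindow (n m : ℕ) : Prop :=
  ∀ a : ℤ, ∃ i : ℕ, i < m ∧ IsCoprime (a + (i : ℤ)) (n : ℤ)

/-- Jacobsthal's function `j(n)`: the least `m ≥ 1` such that every `m` consecutive
integers contain an integer coprime to `n`. -/
noncomputable def jacobsthal (n : ℕ) : ℕ :=
  sInf {m : ℕ | 0 < m ∧ CoprimeInEveryWindow n m}

theorem window_self {n : ℕ} (hn : 0 < n) : CoprimeInEveryWindow n n := by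
  intro a
  have hn' : (0 : ℤ) < (n : ℤ) := by exact_mod_cast hn
  have h0 : 0 ≤ (1 - a) % (n : ℤ) := Int.emod_nonneg _ hn'.ne'
  have h1 : (1 - a) % (n : ℤ) < n := Int.emod_lt_of_pos _ hn'
  refine ⟨((1 - a) % (n : ℤ)).toNat, ?_, ?_⟩
  · omega
  · rw [Int.toNat_of_nonneg h0]
    have h2 := Int.emod_add_mul_ediv (1 - a) (n : ℤ)
    have h3 : a + (1 - a) % (n : ℤ) = 1 + (n : ℤ) * (-((1 - a) / (n : ℤ))) := by linarith
    rw [h3]
    exact isCoprime_one_left.add_mul_left_left _

theorem jacobsthal_mem {n : ℕ} (hn : 0 < n) :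
    0 < jacobsthal n ∧ CoprimeInEveryWindow n (jacobsthal n) := by
  have hne : {m : ℕ | 0 < m ∧ CoprimeInEveryWindow n m}.Nonempty := ⟨n, hn, window_self hn⟩
  exact Nat.sInf_mem hne

theorem jacobsthal_le {n m : ℕ} (hm : 0 < m) (h : CoprimeInEveryWindow n m) :
    jacobsthal n ≤ m :=
  Nat.sInf_le ⟨hm, h⟩

theorem isCoprime_of_no_prime {x : ℤ} {b : ℕ} (hb : 0 < b)
    (h : ∀ p ∈ b.primeFactors, ¬ ((p : ℤ) ∣ x)) : IsCoprime x (b : ℤ) := by
  rw [Int.isCoprime_iff_gcd_eq_one]
  by_contra hg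
  obtain ⟨p, hp, hpd⟩ := Nat.exists_prime_and_dvd hg
  have h1 : (p : ℤ) ∣ x :=
    (Int.natCast_dvd_natCast.mpr hpd).trans (Int.gcd_dvd_left x b)
  have h2 : p ∣ b :=
    Int.natCast_dvd_natCast.mp ((Int.natCast_dvd_natCast.mpr hpd).trans (Int.gcd_dvd_right x b))
  exact h p (Nat.mem_primeFactors.mpr ⟨hp, h2, hb.ne'⟩) h1

theorem block_unique {J s s' i i' : ℕ} (hi : i < J) (hi' : i' < J)
    (h : s * J + i = s' * J + i') : s = s' := by
  rcases lt_trichotomy s s' with hlt | heq | hgt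
  · exfalso
    have : (s + 1) * J ≤ s' * J := Nat.mul_le_mul_right J hlt
    nlinarith
  · exact heq
  · exfalso
    have : (s' + 1) * J ≤ s * J := Nat.mul_le_mul_right J hgt
    nlinarith

theorem window_mul {a b : ℕ} (ha : 0 < a) (hb : 0 < b)
    (hp : ∀ p ∈ b.primeFactors, jacobsthal a * (b.primeFactors.card + 1) ≤ p) :
    CoprimeInEveryWindow (a * b) (jacobsthal a * (b.primeFactors.card + 1)) := by
  intro c
  obtain ⟨hJpos, hJw⟩ := jacobsthal_mem ha
  generalize hJ : jacobsthal a = J at hJpos hJw hp ⊢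
  generalize ht : b.primeFactors.card = t at hp ⊢
  choose i hi1 hi2 using fun s : ℕ => hJw (c + ((s * J : ℕ) : ℤ))
  by_contra hcon
  have key : ∀ s ∈ Finset.range (t + 1), ∃ p ∈ b.primeFactors,
      ((p : ℕ) : ℤ) ∣ c + ((s * J + i s : ℕ) : ℤ) := by
    intro s hs
    by_contra hno
    simp only [not_exists, not_and] at hno
    apply hcon
    refine ⟨s * J + i s, ?_, ?_⟩
    · have h1 : s < t + 1 := Finset.mem_range.mp hs
      have h2 := hi1 s
      have h3 : (s + 1) * J ≤ (t + 1) * J := Nat.mul_le_mul_right J h1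
      nlinarith
    · have hcb : IsCoprime (c + ((s * J + i s : ℕ) : ℤ)) (b : ℤ) :=
        isCoprime_of_no_prime hb hno
      have hca : IsCoprime (c + ((s * J + i s : ℕ) : ℤ)) (a : ℤ) := by
        have h4 := hi2 s
        have h5 : c + ((s * J + i s : ℕ) : ℤ) = c + ((s * J : ℕ) : ℤ) + ((i s : ℕ) : ℤ) := by
          push_cast; ring
        rw [h5]; exact h4
      have := IsCoprime.mul_right hca hcb
      exact_mod_cast this
  choose! f hf1 hf2 using key
  have hinj : Set.InjOn f (Finset.range (t + 1) : Set ℕ) := by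
    intro s hs s' hs' hff
    have hs1 : s ∈ Finset.range (t + 1) := hs
    have hs2 : s' ∈ Finset.range (t + 1) := hs'
    have h1 := hf2 s hs1
    have h2 := hf2 s' hs2
    rw [← hff] at h2
    have hd : ((f s : ℕ) : ℤ) ∣ ((s * J + i s : ℕ) : ℤ) - ((s' * J + i s' : ℕ) : ℤ) := by
      have h3 := dvd_sub h1 h2
      have h4 : c + ((s * J + i s : ℕ) : ℤ) - (c + ((s' * J + i s' : ℕ) : ℤ))
          = ((s * J + i s : ℕ) : ℤ) - ((s' * J + i s' : ℕ) : ℤ) := by ring
      rwa [h4] at h3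
    have hpbig := hp (f s) (hf1 s hs1)
    have hb1 : s * J + i s < J * (t + 1) := by
      have h1 : s < t + 1 := Finset.mem_range.mp hs1
      have h2 := hi1 s
      have h3 : (s + 1) * J ≤ (t + 1) * J := Nat.mul_le_mul_right J h1
      nlinarith
    have hb2 : s' * J + i s' < J * (t + 1) := by
      have h1 : s' < t + 1 := Finset.mem_range.mp hs2
      have h2 := hi1 s'
      have h3 : (s' + 1) * J ≤ (t + 1) * J := Nat.mul_le_mul_right J h1
      nlinarith
    have habs : |((s * J + i s : ℕ) : ℤ) - ((s' * J + i s' : ℕ) : ℤ)| < ((f s : ℕ) : ℤ) := by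
      rw [abs_lt]
      constructor <;> omega
    have hz := Int.eq_zero_of_abs_lt_dvd hd habs
    have heq : s * J + i s = s' * J + i s' := by omega
    exact block_unique (hi1 s) (hi1 s') heq
  have hcard := Finset.card_le_card_of_injOn f (fun s hs => hf1 s hs) hinj
  rw [Finset.card_range, ht] at hcard
  omega

theorem exists_bad_window (n : ℕ) :
    ∃ a : ℤ, ∀ i : ℕ, i < n.primeFactors.card → ¬ IsCoprime (a + (i : ℤ)) (n : ℤ) := by
  classical
  let e : n.primeFactors ≃ Fin n.primeFactors.card := n.primeFactors.equivFin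
  let idx : ℕ → ℕ := fun p => if h : p ∈ n.primeFactors then (e ⟨p, h⟩ : ℕ) else 0
  let r : ℕ → ℕ := fun p => (p - 1) * idx p
  have hs : ∀ p ∈ n.primeFactors, (id p : ℕ) ≠ 0 :=
    fun p hp => (Nat.prime_of_mem_primeFactors hp).ne_zero
  have pp : Set.Pairwise (n.primeFactors : Set ℕ) (Function.onFun Nat.Coprime id) := by
    intro p hp q hq hpq
    exact (Nat.coprime_primes (Nat.prime_of_mem_primeFactors hp)
      (Nat.prime_of_mem_primeFactors hq)).mpr hpq
  obtain ⟨x, hx⟩ := Nat.chineseRemainderOfFinset r id n.primeFactors hs pp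
  refine ⟨(x : ℤ), ?_⟩
  intro i hi hcop
  have hpm : ((e.symm ⟨i, hi⟩ : n.primeFactors) : ℕ) ∈ n.primeFactors := (e.symm ⟨i, hi⟩).2
  generalize hpdef : ((e.symm ⟨i, hi⟩ : n.primeFactors) : ℕ) = p at hpm
  have hpp : p.Prime := Nat.prime_of_mem_primeFactors hpm
  have hidx : idx p = i := by
    have h1 : (⟨p, hpm⟩ : n.primeFactors) = e.symm ⟨i, hi⟩ := Subtype.ext hpdef.symm
    simp only [idx, dif_pos hpm, h1, Equiv.apply_symm_apply]
  have hmod : x ≡ (p - 1) * i [MOD p] := by
    have h1 := hx p hpm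
    simp only [r, hidx, id] at h1
    exact h1
  have hdiv : p ∣ x + i := by
    have h1 : x + i ≡ (p - 1) * i + i [MOD p] := Nat.ModEq.add_right i hmod
    have h2 : (p - 1) * i + i = p * i := by
      have h3 : 1 ≤ p := hpp.one_lt.le
      calc (p - 1) * i + i = (p - 1 + 1) * i := by ring
        _ = p * i := by rw [Nat.sub_add_cancel h3]
    rw [h2] at h1
    exact (Nat.modEq_zero_iff_dvd).mp (h1.trans ((Nat.modEq_zero_iff_dvd).mpr (dvd_mul_right p i)))
  have hpn : p ∣ n := Nat.dvd_of_mem_primeFactors hpm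
  have h3 : (p : ℤ) ∣ (x : ℤ) + (i : ℤ) := by exact_mod_cast hdiv
  have h4 : (p : ℤ) ∣ (n : ℤ) := by exact_mod_cast hpn
  have hu := hcop.isUnit_of_dvd' h3 h4
  rw [Int.isUnit_iff] at hu
  have hp1 := hpp.one_lt
  omega

theorem le_jacobsthal {n : ℕ} (hn : 1 < n) : n.primeFactors.card + 1 ≤ jacobsthal n := by
  obtain ⟨hpos, hw⟩ := jacobsthal_mem (by omega : 0 < n)
  obtain ⟨a, ha⟩ := exists_bad_window n
  by_contra hlt
  have hlt' := not_le.mp hlt
  obtain ⟨i, hi, hc⟩ := hw a
  exact ha i (by omega) hc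

theorem jacobsthal_one : jacobsthal 1 = 1 := by
  apply le_antisymm
  · apply jacobsthal_le one_pos
    intro a
    exact ⟨0, one_pos, by simpa using isCoprime_one_right⟩
  · exact (jacobsthal_mem one_pos).1

/-- (1) `j(n) ≥ ω(n) + 1` for all `n > 1`.
(2) If every prime factor of `b` is at least `j(a) (ω(b) + 1)`, then
`j(a b) ≤ j(a) (ω(b) + 1)`.
(3) If every prime factor of `n > 1` exceeds `ω(n)`, then `j(n) = ω(n) + 1`. -/
theorem result :
    (∀ n : ℕ, 1 < n → n.primeFactors.card + 1 ≤ jacobsthal n) ∧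
    (∀ a b : ℕ, 0 < a → 0 < b →
      (∀ p ∈ b.primeFactors, jacobsthal a * (b.primeFactors.card + 1) ≤ p) →
      jacobsthal (a * b) ≤ jacobsthal a * (b.primeFactors.card + 1)) ∧
    (∀ n : ℕ, 1 < n → (∀ p ∈ n.primeFactors, n.primeFactors.card < p) →
      jacobsthal n = n.primeFactors.card + 1) := by
  refine ⟨fun n hn => le_jacobsthal hn, ?_, ?_⟩
  · intro a b ha hb hp
    exact jacobsthal_le (Nat.mul_pos (jacobsthal_mem ha).1 (Nat.succ_pos _)) (window_mul ha hb hp)
  · intro n hn hp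
    apply le_antisymm _ (le_jacobsthal hn)
    have h1 := jacobsthal_le (n := 1 * n)
      (Nat.mul_pos (jacobsthal_mem one_pos).1 (Nat.succ_pos n.primeFactors.card))
      (window_mul one_pos (by omega : 0 < n) (by
        intro p hpm
        rw [jacobsthal_one, one_mul]
        exact hp p hpm))
    rw [jacobsthal_one, one_mul, one_mul] at h1
    exact h1

end Vale.Agent.Results.P013.LargePrimes
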